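import Vale.Agent.P207.SPH.H40.All3
import Vale.Agent.P207.SPH.H128.G1

/-!
# P207: exponents and Ricci curvature of negatively curved manifolds

`χ` are the exponents of the Liouville measure `m` of a closed negatively curved manifold. Then
`∑ χ i² ≤ -∫ Ric(v,v) dm`, with equality if and only if `g` is locally symmetric, and the mean over
`m` of the logarithm of the area density of spheres, minus `T ∑ χ i`, has a limit
`δ ≥ -∑ log (2 χ i)`, with equality if and only if `g` is locally symmetric.
-/

open scoped Manifold ContDiff ENNReal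

noncomputable section

namespace Vale.Agent.Results.P207.ExponentsRicci

open Vale.Agent.P255 (RMetric)
open Vale.Agent.P207F

theorem result (n : ℕ) (hn : 3 ≤ n) (M : Type) [TopologicalSpace M] [CompactSpace M] [T2Space M]
    [ConnectedSpace M] [ChartedSpace (EV n) M] [IsManifold 𝓘(ℝ, EV n) ∞ M] [MeasurableSpace M]
    [BorelSpace M] :
    (∀ g : RMetric (EV n) M, WellDefined (stdB n) g) ∧
    ∀ g : RMetric (EV n) M, NegCurvature g →
      ∃ χ : Fin (n - 1) → ℝ, IsLyap (stdB n) g χ ∧ (∀ i, 0 < χ i) ∧
        hLiou (stdB n) g ≤ ENNReal.ofReal (∑ i, χ i) ∧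
        ENNReal.ofReal (∑ i, χ i) ≤ hTop g ∧
        RicciSquare g χ ∧ GeometricMean g χ :=
  Vale.Agent.P207.SPH.wrap3 Vale.Agent.P207.SPH.H128.sysGeo n hn M

end Vale.Agent.Results.P207.ExponentsRicci
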