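import Vale.Agent.P207.H596.Ray.Light

/-!
# P207: Katok's conjecture for metrics with extremal curvature along single geodesic rays

`q(v)` is the trace of the square root of the Jacobi operator of `v`. If the mean of `q` along one
ray and the mean of `-Ric` along another one satisfy `(mean q)² > (n - 1) mean (-Ric)`, then
`h_L < h_top`. If `K ≤ -a²` and the mean of `-Ric` along one ray is at most `(n - 1) a²`, or
`K ≥ -b²` and the mean of `q` along one ray is at least `(n - 1) b`, then `h_L = h_top` if and only
if `g` is locally symmetric.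
-/

open scoped Manifold ContDiff ENNReal

noncomputable section

namespace Vale.Agent.Results.P207.ExtremalRay

open Vale.Agent.P255 (RMetric)
open Vale.Agent.P207F

theorem result (n : ℕ) (hn : 3 ≤ n) (M : Type) [TopologicalSpace M] [CompactSpace M] [T2Space M]
    [ConnectedSpace M] [ChartedSpace (EV n) M] [IsManifold 𝓘(ℝ, EV n) ∞ M] [MeasurableSpace M]
    [BorelSpace M] :
    (∀ g : RMetric (EV n) M, WellDefined (stdB n) g) ∧
    ∀ g : RMetric (EV n) M, NegCurvature g →
      (RayGap g → hLiou (stdB n) g < hTop g ∧ ¬ LocSymmetric g) ∧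
      (RayLow g ∨ RayHigh g →
        hLiou (stdB n) g ≤ hTop g ∧
        (hLiou (stdB n) g = hTop g ↔ LocSymmetric g) ∧
        (hLiou (stdB n) g = hTop g ↔ ∃ κ : ℝ, 0 < κ ∧ ConstCurvature g κ)) :=
  Vale.Agent.P207.H596.Ray.light hn M

end Vale.Agent.Results.P207.ExtremalRay
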