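import Vale.Agent.P207.SPH.H40.RayS
import Vale.Agent.P207.SPH.H40.RayCore
import Vale.Agent.P207.H596.Ray.Ineq
import Vale.Agent.P207.SPH.H453.AvCore

/-!
# P207: Katok's conjecture for metrics pinched along one geodesic ray, or on average along each

`M` is a closed connected smooth manifold of dimension `n ≥ 3`, `g` a negatively curved metric with
a bound of the curvature from one side on `M` and a condition on the mean of the curvature along
one geodesic ray, or with a condition on means of the curvature along each geodesic. Then
`h_L ≤ h_top`, with equality if and only if `g` is locally symmetric, and if and only if `g` has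
constant curvature.
-/

open scoped Manifold ContDiff ENNReal

noncomputable section

namespace Vale.Agent.Results.P207.RayPinched

open Vale.Agent.P255 (RMetric)
open Vale.Agent.P207F

theorem result (n : ℕ) (hn : 3 ≤ n) (M : Type) [TopologicalSpace M] [CompactSpace M] [T2Space M]
    [ConnectedSpace M] [ChartedSpace (EV n) M] [IsManifold 𝓘(ℝ, EV n) ∞ M] [MeasurableSpace M]
    [BorelSpace M] :
    (∀ g : RMetric (EV n) M, WellDefined (stdB n) g) ∧
    ∀ g : RMetric (EV n) M, NegCurvature g →
      (OneAbove n g (fun v => -ricUT g v) ∨ OneBelow n g ∨ OneRicci n g (fun v => -ricUT g v) ∨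
        EachPinched (stdB n) g (fun v => -ricUT g v)) →
      hLiou (stdB n) g ≤ hTop g ∧
      (hLiou (stdB n) g = hTop g ↔ LocSymmetric g) ∧
      (hLiou (stdB n) g = hTop g ↔ ∃ κ : ℝ, 0 < κ ∧ ConstCurvature g κ) :=
  Ray.ray_short hn (fun g hN => Vale.Agent.P207.H596.Ray.ray_ineq hn g hN)
    (fun g h φ μ m hφ hμ hm heq => Ray.ray_core hn g h φ μ m hφ hμ hm heq)
    (fun g hN h φ μ m hφ hμ hm heq => Ray.avg_core_of hn
      (fun {_} => Vale.Agent.P207.N4.Y.logicB_of Vale.Agent.P207.N4.Y.logicW) g hN h φ μ m
      hφ hμ hm heq)

end Vale.Agent.Results.P207.RayPinched
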