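import Vale.Agent.P207.SPH.H647.All
import Vale.Agent.P207.SPH.H128.G1

/-!
# P207: areas of spheres and Lyapunov exponents of negatively curved manifolds

`A(T)` is the average area of the spheres of radius `T` of the universal cover, divided by the area
of the unit sphere of `ℝⁿ`, `χ` the exponents of the Liouville measure, `Λ = ∑ χ i`. Then
`liminf e^(-TΛ) A(T) ≥ ∏ (2 χ i)⁻¹`, and `g` is locally symmetric if and only if equality holds.
-/

open scoped Manifold ContDiff ENNReal

noncomputable section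

namespace Vale.Agent.Results.P207.SphereAreas

open Vale.Agent.P255 (RMetric)
open Vale.Agent.P207F

theorem result (n : ℕ) (hn : 3 ≤ n) (M : Type) [TopologicalSpace M] [CompactSpace M] [T2Space M]
    [ConnectedSpace M] [ChartedSpace (EV n) M] [IsManifold 𝓘(ℝ, EV n) ∞ M] [MeasurableSpace M]
    [BorelSpace M] :
    (∀ g : RMetric (EV n) M, WellDefined (stdB n) g) ∧
    ∀ g : RMetric (EV n) M, NegCurvature g →
      ∃ χ : Fin (n - 1) → ℝ, IsLyap (stdB n) g χ ∧ (∀ i, 0 < χ i) ∧
        hLiou (stdB n) g ≤ ENNReal.ofReal (∑ i, χ i) ∧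
        ENNReal.ofReal (∑ i, χ i) ≤ hTop g ∧
        SphereArea (stdB n) g χ ∧ AreaCriterion (stdB n) g χ :=
  Vale.Agent.P207.SPH.H647.wrap Vale.Agent.P207.SPH.H128.sysGeo n hn M

end Vale.Agent.Results.P207.SphereAreas
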